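import Vale.Agent.P212.Alg.Data

/-!
P212: frames over the ring of one component, the row operations and right multiplications on
them, and the quotients by an ideal of the chain and the central commutator.
-/

namespace VP212.Alg

instance : Fact (Nat.Prime 5) := ⟨by norm_num⟩

variable (D : RData)

/-- Two columns over the ring that are independent modulo the maximal ideal. -/
abbrev Fr : Type := {v : Fin 3 → Fin 2 → D.R // D.IsFrame v}

variable {D}

theorem RData.isUnit_iff_ne (r : D.R) (h : D.ε r ≠ 0) : IsUnit r := D.isUnit_of r h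

theorem RData.I_le {i k : ℕ} (h : i ≤ k) : D.I k ≤ D.I i :=
  antitone_nat_of_succ_le D.I_anti h

theorem RData.mul_mem (i : ℕ) (r s : D.R) (hs : s ∈ D.I i) : r * s ∈ D.I i ∧ s * r ∈ D.I i := by
  rcases Nat.eq_zero_or_pos i with rfl | hi
  · simp [D.I_zero]
  have hm : D.ε (r - algebraMap (ZMod 5) D.R (D.ε r)) = 0 := by
    rw [map_sub, AlgHom.commutes]; simp
  have h := D.mul_lt i hi s hs _ hm
  have hI := D.I_anti i
  constructor
  · have h1 := (D.I i).add_mem ((D.I i).smul_mem (D.ε r) hs) (hI h.1)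
    convert h1 using 1
    rw [sub_mul, Algebra.smul_def]; abel
  · have h1 := (D.I i).add_mem ((D.I i).smul_mem (D.ε r) hs) (hI h.2)
    convert h1 using 1
    rw [mul_sub, Algebra.smul_def, Algebra.commutes]; abel

/-- In the step `I i / I (i + 1)` the ring acts through the augmentation. -/
theorem RData.mul_step {i : ℕ} (hi : 1 ≤ i) {s : D.R} (hs : s ∈ D.I i) (r : D.R) :
    s * r - D.ε r • s ∈ D.I (i + 1) := by
  have hm : D.ε (r - algebraMap (ZMod 5) D.R (D.ε r)) = 0 := by
    rw [map_sub, AlgHom.commutes]; simp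
  convert (D.mul_lt i hi s hs _ hm).2 using 1
  rw [mul_sub, Algebra.smul_def, Algebra.commutes]

theorem RData.ε_eq_zero {i : ℕ} (hi : 1 ≤ i) {r : D.R} (hr : r ∈ D.I i) : D.ε r = 0 :=
  (D.I_one r).1 (D.I_le hi hr)

section Ops

theorem rowOp_apply (i j : Fin 3) (r : D.R) (v : Fin 3 → Fin 2 → D.R) (k : Fin 3) (b : Fin 2) :
    rowOp i j r v k b = if k = i then v i b + r * v j b else v k b := by
  unfold rowOp
  by_cases h : k = i
  · subst h; simp
  · simp [h]

theorem isFrame_rowOp {i j : Fin 3} (h : i ≠ j) (r : D.R) {v : Fin 3 → Fin 2 → D.R}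
    (hv : D.IsFrame v) : D.IsFrame (rowOp i j r v) := by
  intro α β hab
  refine hv α β fun k => ?_
  have hk := hab k
  have hj := hab j
  simp only [rowOp_apply, if_neg (Ne.symm h)] at hj
  by_cases hki : k = i
  · subst hki
    simp only [rowOp_apply, if_true, map_add, map_mul] at hk
    linear_combination hk - D.ε r * hj
  · simpa only [rowOp_apply, if_neg hki] using hk

theorem rowOp_rowOp {i j : Fin 3} (h : i ≠ j) (r s : D.R) (v : Fin 3 → Fin 2 → D.R) :
    rowOp i j r (rowOp i j s v) = rowOp i j (r + s) v := by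
  funext k b
  simp only [rowOp_apply, if_neg (Ne.symm h)]
  split_ifs with hk
  · rw [add_mul]; abel
  · rfl

theorem rowOp_zero (i j : Fin 3) (v : Fin 3 → Fin 2 → D.R) : rowOp i j 0 v = v := by
  funext k b
  rw [rowOp_apply]
  split_ifs with hk
  · simp [hk]
  · rfl

/-- A row operation on frames. -/
def el (i j : Fin 3) (r : D.R) : Equiv.Perm (Fr D) :=
  if h : i ≠ j then
    { toFun := fun v => ⟨rowOp i j r v.1, isFrame_rowOp h r v.2⟩
      invFun := fun v => ⟨rowOp i j (-r) v.1, isFrame_rowOp h (-r) v.2⟩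
      left_inv := fun v => Subtype.ext (by simp [rowOp_rowOp h, rowOp_zero])
      right_inv := fun v => Subtype.ext (by simp [rowOp_rowOp h, rowOp_zero]) }
  else 1

theorem el_val {i j : Fin 3} (h : i ≠ j) (r : D.R) (v : Fr D) :
    (el i j r v).1 = rowOp i j r v.1 := by simp [el, h]

theorem el_add {i j : Fin 3} (h : i ≠ j) (r s : D.R) :
    (el i j (r + s) : Equiv.Perm (Fr D)) = el i j r * el i j s := by
  ext1 v; apply Subtype.ext
  simp [Equiv.Perm.mul_apply, el_val h, rowOp_rowOp h]

theorem el_zero {i j : Fin 3} (h : i ≠ j) : (el i j 0 : Equiv.Perm (Fr D)) = 1 := by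
  ext1 v; apply Subtype.ext
  simp [el_val h, rowOp_zero]

theorem el_inv {i j : Fin 3} (h : i ≠ j) (r : D.R) :
    (el i j r : Equiv.Perm (Fr D))⁻¹ = el i j (-r) :=
  inv_eq_of_mul_eq_one_right (by rw [← el_add h, add_neg_cancel, el_zero h])

theorem el_heis {i j k : Fin 3} (hij : i ≠ j) (hjk : j ≠ k) (hik : i ≠ k) (r s : D.R) :
    (el i j r * el j k s : Equiv.Perm (Fr D)) = el i k (r * s) * (el j k s * el i j r) := by
  ext1 v; apply Subtype.ext
  funext l b
  simp only [Equiv.Perm.mul_apply, el_val hij, el_val hjk, el_val hik, rowOp_apply]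
  split_ifs <;> simp_all [mul_add, mul_assoc, add_assoc]

theorem el_comm_row {i j k : Fin 3} (hij : i ≠ j) (hik : i ≠ k) (r s : D.R) :
    Commute (el i j r : Equiv.Perm (Fr D)) (el i k s) := by
  ext1 v; apply Subtype.ext
  funext l b
  simp only [Equiv.Perm.mul_apply, el_val hij, el_val hik, rowOp_apply, if_neg (Ne.symm hij),
    if_neg (Ne.symm hik)]
  split_ifs <;> simp_all [add_assoc, add_comm, add_left_comm]

theorem el_comm_col {i j k : Fin 3} (hik : i ≠ k) (hjk : j ≠ k) (r s : D.R) :
    Commute (el i k r : Equiv.Perm (Fr D)) (el j k s) := by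
  by_cases hij : i = j
  · subst hij; exact el_comm_row hik hjk r s
  ext1 v; apply Subtype.ext
  funext l b
  simp only [Equiv.Perm.mul_apply, el_val hik, el_val hjk, rowOp_apply, if_neg (Ne.symm hik),
    if_neg (Ne.symm hjk)]
  split_ifs <;> simp_all

theorem isFrame_mul_right (u : D.Rˣ) {v : Fin 3 → Fin 2 → D.R} (hv : D.IsFrame v) :
    D.IsFrame fun k b => v k b * (u : D.R) := by
  have hu : D.ε (u : D.R) ≠ 0 := (u.isUnit.map D.ε).ne_zero
  intro α β hab
  refine hv α β fun k => ?_
  have hk := hab k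
  simp only [map_mul] at hk
  refine (mul_eq_zero.1 ?_).resolve_right hu
  linear_combination hk

/-- Right multiplication by a unit on frames. -/
def rm (u : D.Rˣ) : Equiv.Perm (Fr D) where
  toFun v := ⟨fun k b => v.1 k b * (u : D.R), isFrame_mul_right u v.2⟩
  invFun v := ⟨fun k b => v.1 k b * ((u⁻¹ : D.Rˣ) : D.R), isFrame_mul_right u⁻¹ v.2⟩
  left_inv v := Subtype.ext (by funext k b; simp [mul_assoc])
  right_inv v := Subtype.ext (by funext k b; simp [mul_assoc])

@[simp] theorem rm_val (u : D.Rˣ) (v : Fr D) (k : Fin 3) (b : Fin 2) :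
    (rm u v).1 k b = v.1 k b * (u : D.R) := rfl

theorem rm_mul (u w : D.Rˣ) : (rm (u * w) : Equiv.Perm (Fr D)) = rm w * rm u := by
  ext1 v; apply Subtype.ext; funext k b
  simp [mul_assoc]

theorem rm_comm_el (u : D.Rˣ) (i j : Fin 3) (r : D.R) :
    Commute (rm u : Equiv.Perm (Fr D)) (el i j r) := by
  by_cases h : i = j
  · simp [el, h]
  ext1 v; apply Subtype.ext; funext k b
  simp only [Equiv.Perm.mul_apply, rm_val, el_val h, rowOp_apply]
  split_ifs <;> simp [add_mul, mul_assoc]

end Ops

section Quot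

/-- Congruence modulo `I i` up to the central commutator. -/
def frRel (i : ℕ) (v v' : Fr D) : Prop :=
  ∃ u ∈ Subgroup.zpowers D.c₀, ∀ k b, v'.1 k b - v.1 k b * (u : D.R) ∈ D.I i

theorem commute_c₀ {u : D.Rˣ} (hu : u ∈ Subgroup.zpowers D.c₀) (r : D.R) :
    Commute (u : D.R) r := by
  obtain ⟨m, rfl⟩ := Subgroup.mem_zpowers_iff.1 hu
  exact (D.c₀_comm r).units_zpow_left m

/-- The setoid of `frRel`. -/
def frSetoid (D : RData) (i : ℕ) : Setoid (Fr D) where
  r := frRel i
  iseqv :=
    { refl := fun v => ⟨1, one_mem _, fun k b => by simp⟩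
      symm := fun {v v'} ⟨u, hu, h⟩ => ⟨u⁻¹, inv_mem hu, fun k b => by
        have := (D.mul_mem i ((u⁻¹ : D.Rˣ) : D.R) _ (h k b)).2
        rw [← (D.I i).neg_mem_iff]
        convert this using 1
        rw [sub_mul, mul_assoc, Units.mul_inv, mul_one, neg_sub]⟩
      trans := fun {v v' v''} ⟨u, hu, h⟩ ⟨w, hw, h'⟩ => ⟨u * w, mul_mem hu hw, fun k b => by
        have := (D.I i).add_mem (h' k b) ((D.mul_mem i (w : D.R) _ (h k b)).2)
        convert this using 1
        rw [sub_mul, Units.val_mul, mul_assoc]; abel⟩ }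

/-- The fibre: frames modulo `I i` and the central commutator. -/
abbrev Om (D : RData) (i : ℕ) : Type := Quotient (frSetoid D i)

/-- The class of a frame. -/
abbrev cls (i : ℕ) (v : Fr D) : Om D i := Quotient.mk (frSetoid D i) v

/-- The permutations of frames compatible with all congruences. -/
def eqv (D : RData) : Subgroup (Equiv.Perm (Fr D)) where
  carrier := {f | ∀ i v v', frRel i (f v) (f v') ↔ frRel i v v'}
  mul_mem' {f g} hf hg i v v' := by
    simp only [Equiv.Perm.mul_apply]; exact (hf i _ _).trans (hg i v v')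
  one_mem' i v v' := Iff.rfl
  inv_mem' {f} hf i v v' := by
    rw [Equiv.Perm.inv_def]
    conv_rhs => rw [← f.apply_symm_apply v, ← f.apply_symm_apply v']
    exact (hf i _ _).symm

theorem el_mem_eqv (i j : Fin 3) (r : D.R) : (el i j r : Equiv.Perm (Fr D)) ∈ eqv D := by
  by_cases h : i = j
  · simp [el, h, one_mem]
  have key : ∀ (s : D.R) (m : ℕ) (v v' : Fr D), frRel m v v' →
      frRel m (el i j s v) (el i j s v') := by
    rintro s m v v' ⟨u, hu, hv⟩
    refine ⟨u, hu, fun k b => ?_⟩
    simp only [el_val h, rowOp_apply]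
    split_ifs with hk
    · have := (D.I m).add_mem (hv i b) (D.mul_mem m s _ (hv j b)).1
      convert this using 1
      rw [add_mul, mul_sub, ← mul_assoc]; abel
    · exact hv k b
  intro m v v'
  refine ⟨fun hv => ?_, key r m v v'⟩
  have := key (-r) m _ _ hv
  rwa [← el_inv h, Equiv.Perm.inv_def, Equiv.symm_apply_apply, Equiv.symm_apply_apply] at this

theorem rm_mem_eqv (w : D.Rˣ) : (rm w : Equiv.Perm (Fr D)) ∈ eqv D := by
  intro m v v'
  constructor
  · rintro ⟨u, hu, hv⟩
    refine ⟨u, hu, fun k b => ?_⟩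
    have := (D.mul_mem m ((w⁻¹ : D.Rˣ) : D.R) _ (hv k b)).2
    convert this using 1
    rw [rm_val, rm_val, sub_mul, mul_assoc (v.1 k b), ← (commute_c₀ hu (w : D.R)).eq]
    simp [mul_assoc]
  · rintro ⟨u, hu, hv⟩
    refine ⟨u, hu, fun k b => ?_⟩
    have := (D.mul_mem m (w : D.R) _ (hv k b)).2
    convert this using 1
    rw [rm_val, rm_val, sub_mul, mul_assoc (v.1 k b) (u : D.R), (commute_c₀ hu (w : D.R)).eq,
      mul_assoc]

/-- The induced permutation of a fibre. -/
def toOm (D : RData) (i : ℕ) : eqv D →* Equiv.Perm (Om D i) where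
  toFun f := Quotient.congr f.1 fun v v' => (f.2 i v v').symm
  map_one' := by ext1 x; induction x using Quotient.inductionOn; rfl
  map_mul' f g := by ext1 x; induction x using Quotient.inductionOn; rfl

@[simp] theorem toOm_cls (i : ℕ) (f : eqv D) (v : Fr D) :
    toOm D i f (cls i v) = cls i (f.1 v) := rfl

/-- The projection between two fibres. -/
def proj {i k : ℕ} (h : D.I k ≤ D.I i) : Om D k → Om D i :=
  Quotient.map' id fun _ _ ⟨u, hu, hv⟩ => ⟨u, hu, fun a b => h (hv a b)⟩

@[simp] theorem proj_cls {i k : ℕ} (h : D.I k ≤ D.I i) (v : Fr D) :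
    proj h (cls k v) = cls i v := rfl

theorem proj_surj {i k : ℕ} (h : D.I k ≤ D.I i) : Function.Surjective (proj h) := by
  intro x; induction x using Quotient.inductionOn with
  | h v => exact ⟨cls k v, rfl⟩

theorem proj_toOm {i k : ℕ} (h : D.I k ≤ D.I i) (f : eqv D) (x : Om D k) :
    proj h (toOm D k f x) = toOm D i f (proj h x) := by
  induction x using Quotient.inductionOn; rfl

theorem proj_bij {i k : ℕ} (h : D.I k ≤ D.I i) (h' : D.I i ≤ D.I k) :
    Function.Bijective (proj h) := by
  refine ⟨fun x x' hx => ?_, proj_surj h⟩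
  induction x, x' using Quotient.inductionOn₂ with
  | h v v' =>
    obtain ⟨u, hu, hv⟩ := Quotient.exact hx
    exact Quotient.sound ⟨u, hu, fun a b => h' (hv a b)⟩

end Quot

end VP212.Alg
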