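import Vale.Agent.P212.Alg.Tower.Shuffle

/-!
P212: the sequence of levels of one component, with the bounded words between consecutive levels.
-/

namespace VP212.Alg

variable {D : RData}

/-- The states of the levels: an ideal of the chain and the parameters. -/
abbrev St (D : RData) : Type := ℕ × Par D

/-- The allowed steps between consecutive levels. -/
def Step (S S' : St D) : Prop :=
  (S.1 = 0 ∧ S'.1 = 1) ∨
    (∃ i, 1 ≤ i ∧ S = (i, (1, 0)) ∧ S' = (i + 1, (1, D.j i))) ∨
      (S'.1 = S.1 ∧ Good S.2 S'.2 ∧ Good S'.2 S.2)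

theorem spn_p (P : Par D) : Spn P (P.1 : D.R) :=
  ⟨Pi.single 5 1, by simp [Wl_apply, RData.W]⟩

theorem spn_s (P : Par D) : Spn P P.2 :=
  ⟨Pi.single 6 1, by simp [Wl_apply, RData.W]⟩

theorem spn_gen (P : Par D) {g : D.Rˣ} (hg : g ∈ [D.x, D.x⁻¹, D.y, D.y⁻¹]) :
    Spn P (g : D.R) := by
  simp only [List.mem_cons, List.not_mem_nil, or_false] at hg
  rcases hg with rfl | rfl | rfl | rfl
  · exact ⟨Pi.single 1 1, by simp [Wl_apply, RData.W]⟩
  · exact ⟨Pi.single 2 1, by simp [Wl_apply, RData.W]⟩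
  · exact ⟨Pi.single 3 1, by simp [Wl_apply, RData.W]⟩
  · exact ⟨Pi.single 4 1, by simp [Wl_apply, RData.W]⟩

theorem good_refl (P : Par D) : Good P P :=
  ⟨⟨_, _, spn_p P, spn_one, (mul_one _).symm⟩, spn_s P⟩

theorem good_shift (P : Par D) (t : ZMod 5) : Good P (P.1, P.2 + t • (P.1 : D.R)) :=
  ⟨⟨_, _, spn_p P, spn_one, (mul_one _).symm⟩, (spn_s P).add ((spn_p P).smul t)⟩

theorem good_mul (P : Par D) {g : D.Rˣ} (hg : g ∈ [D.x, D.x⁻¹, D.y, D.y⁻¹]) :
    Good P (P.1 * g, P.2) :=
  ⟨⟨_, _, spn_p P, spn_gen P hg, Units.val_mul _ _⟩, spn_s P⟩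

theorem inv_mem_gens {g : D.Rˣ} (hg : g ∈ [D.x, D.x⁻¹, D.y, D.y⁻¹]) :
    g⁻¹ ∈ [D.x, D.x⁻¹, D.y, D.y⁻¹] := by
  simp only [List.mem_cons, List.not_mem_nil, or_false] at hg ⊢
  rcases hg with rfl | rfl | rfl | rfl <;> simp

theorem inner_path (i : ℕ) (r : D.R) :
    Relation.ReflTransGen (Step (D := D)) (i, (1, r)) (i, (1, 0)) := by
  refine (D.reach r).lift (fun P => ((i, P) : St D)) fun P P' h => ?_
  refine Or.inr (Or.inr ⟨rfl, ?_⟩)
  rcases h with ⟨g, hg, rfl⟩ | rfl | rfl
  · refine ⟨good_mul P hg, ?_⟩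
    simpa using good_mul ((P.1 * g, P.2) : Par D) (inv_mem_gens hg)
  · exact ⟨by simpa using good_shift P 1,
      by simpa using good_shift ((P.1, P.2 + (P.1 : D.R)) : Par D) (-1)⟩
  · exact ⟨by simpa [sub_eq_add_neg] using good_shift P (-1),
      by simpa using good_shift ((P.1, P.2 - (P.1 : D.R)) : Par D) 1⟩

theorem level_path (D : RData) :
    Relation.ReflTransGen (Step (D := D)) (0, (1, 0)) (D.len, (1, 0)) := by
  have h : ∀ i, Relation.ReflTransGen (Step (D := D)) (0, (1, 0)) (i + 1, (1, 0)) := fun i => by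
    induction i with
    | zero => exact .single (Or.inl ⟨rfl, rfl⟩)
    | succ i ih =>
      exact (ih.tail (Or.inr (Or.inl ⟨i + 1, Nat.le_add_left 1 i, rfl, rfl⟩))).trans
        (inner_path _ _)
  simpa [Nat.sub_add_cancel D.len_pos] using h (D.len - 1)

theorem step_self (S : St D) : Step S S := Or.inr (Or.inr ⟨rfl, good_refl _, good_refl _⟩)

theorem exists_seq {S T : St D} (h : Relation.ReflTransGen (Step (D := D)) S T) :
    ∃ (st : ℕ → St D) (L : ℕ), st 0 = S ∧ (∀ l, L ≤ l → st l = T) ∧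
      ∀ l, Step (st l) (st (l + 1)) := by
  induction h with
  | refl => exact ⟨fun _ => S, 0, rfl, fun _ _ => rfl, fun _ => step_self S⟩
  | @tail U V _ hUV ih =>
    obtain ⟨st, L, h0, hL, hst⟩ := ih
    refine ⟨fun l => if l ≤ L then st l else V, L + 1, by simp [h0],
      fun l hl => if_neg (by omega), fun l => ?_⟩
    rcases lt_trichotomy l L with hl | rfl | hl
    · simpa [hl.le, Nat.succ_le_of_lt hl] using hst l
    · simpa [hL l le_rfl] using hUV
    · simpa [not_le.2 hl, show ¬ l + 1 ≤ L by omega] using step_self V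

/-- The levels of the component. -/
noncomputable def seq (D : RData) : ℕ → St D := (exists_seq (level_path D)).choose

/-- The top level. -/
noncomputable def topLevel (D : RData) : ℕ := (exists_seq (level_path D)).choose_spec.choose

theorem seq_spec (D : RData) : seq D 0 = (0, (1, 0)) ∧
    (∀ l, topLevel D ≤ l → seq D l = (D.len, (1, 0))) ∧
      ∀ l, Step (seq D l) (seq D (l + 1)) :=
  (exists_seq (level_path D)).choose_spec.choose_spec

theorem Step.le {S S' : St D} (h : Step S S') : D.I S'.1 ≤ D.I S.1 := by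
  rcases h with ⟨h, -⟩ | ⟨i, -, rfl, rfl⟩ | ⟨h, -⟩
  · rw [h, D.I_zero]; exact le_top
  · exact D.I_anti i
  · rw [h]

/-- The word at a level. -/
noncomputable def wdOm (S : St D) (w : List Gen) : Equiv.Perm (Om D S.1) :=
  toOm D S.1 (wdE S.2 w)

theorem subsingleton_zero {i : ℕ} (hi : i = 0) : Subsingleton (Om D i) := by
  subst hi
  refine ⟨fun x x' => ?_⟩
  induction x, x' using Quotient.inductionOn₂ with
  | h v v' => exact Quotient.sound ⟨1, one_mem _, fun k b => by simp [D.I_zero]⟩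

theorem Step.down {S S' : St D} (h : Step S S') (g : Gen) :
    ∃ w : List Gen, w.length ≤ 200 ∧ ∀ x, proj h.le (toOm D S'.1 (letE S'.2 g) x) =
      wdOm S w (proj h.le x) := by
  have hproj := h.le
  rcases h with ⟨h0, -⟩ | ⟨i, hi, rfl, rfl⟩ | ⟨he, hg, -⟩
  · have := subsingleton_zero (D := D) h0
    exact ⟨[], by simp, fun x => Subsingleton.elim _ _⟩
  · refine ⟨[g], by simp, fun x => ?_⟩
    rw [proj_toOm]
    induction x using Quotient.inductionOn with
    | h v => exact block_letter hi g v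
  · obtain ⟨w, hw, e⟩ := short_letE hg g
    exact ⟨w, hw.trans (by norm_num), fun x => by rw [proj_toOm, wdOm, e]⟩
where
  block_letter {i : ℕ} (hi : 1 ≤ i) (g : Gen) (v : Fr D) :
      toOm D i (letE (1, D.j i) g) (cls i v) = wdOm ((i, (1, 0)) : St D) [g] (cls i v) := by
    simp only [wdOm, wdE, List.map_cons, List.map_nil, List.prod_cons, List.prod_nil, mul_one,
      toOm_cls]
    refine Quotient.sound ⟨1, one_mem _, fun k b => ?_⟩
    simp only [letE, elE, el_val (ne_next g.1), rowOp_apply, Units.val_one, mul_one]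
    split_ifs with hk
    · have := (D.I i).neg_mem (D.mul_mem i (v.1 (g.1 + 1) b) _
        ((D.I i).smul_mem (g.2 6) (D.j_mem i hi))).2
      convert this using 1
      simp only [Wl_apply, RData.W, smul_zero, add_zero, add_mul]
      abel
    · simp

theorem Step.up {S S' : St D} (h : Step S S') (g : Gen) :
    ∃ w : List Gen, w.length ≤ 200 ∧ ∀ x, proj h.le (wdOm S' w x) =
      toOm D S.1 (letE S.2 g) (proj h.le x) := by
  have hproj := h.le
  rcases h with ⟨h0, -⟩ | ⟨i, hi, rfl, rfl⟩ | ⟨he, -, hg⟩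
  · have := subsingleton_zero (D := D) h0
    exact ⟨[], by simp, fun x => Subsingleton.elim _ _⟩
  · refine ⟨[g], by simp, fun x => ?_⟩
    rw [wdOm, proj_toOm]
    induction x using Quotient.inductionOn with
    | h v =>
      have := Step.down.block_letter hi g v
      simp only [wdOm, wdE, List.map_cons, List.map_nil, List.prod_cons, List.prod_nil,
        mul_one] at this ⊢
      exact this
  · obtain ⟨w, hw, e⟩ := short_letE hg g
    exact ⟨w, hw.trans (by norm_num), fun x => by rw [wdOm, proj_toOm, e]⟩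

theorem Step.shuffle {S S' : St D} (h : Step S S') (x x' : Om D S'.1)
    (hxx : proj h.le x = proj h.le x') :
    ∃ w : List Gen, w.length ≤ 200 ∧ wdOm S' w x = x' := by
  have hproj := h.le
  change proj hproj x = proj hproj x' at hxx
  obtain ⟨i₀, P₀⟩ := S
  obtain ⟨i₁, P₁⟩ := S'
  rcases h with ⟨-, h1⟩ | ⟨i, hi, h0, h1⟩ | ⟨he, -⟩
  · simp only at h1
    subst h1
    obtain ⟨f, ⟨w, hw, rfl⟩, hf⟩ := shuffle_root (P := P₁) x x'
    exact ⟨w, hw.trans (by norm_num), hf⟩
  · simp only [Prod.mk.injEq] at h0 h1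
    obtain ⟨rfl, rfl⟩ := h0
    obtain ⟨rfl, rfl⟩ := h1
    obtain ⟨f, ⟨w, hw, rfl⟩, hf⟩ :=
      shuffle_step hi (spn_s ((1, D.j i₀) : Par D)) hproj x x' hxx
    exact ⟨w, hw.trans (by norm_num), hf⟩
  · simp only at he
    have := (proj_bij hproj (by simp [he])).1 hxx
    exact ⟨[], by simp, by simp [wdOm, wdE, this]⟩

end VP212.Alg
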