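import Vale.Agent.P212.Alg.Tower.Levels

/-!
P212: the tower built from the ring data of all components, and its lifting at the top levels.
-/

namespace VP212.Alg

variable {D : RData}

theorem wordPerm_toOm (S : St D) (w : List Gen) :
    wordPerm (fun g => toOm D S.1 (letE S.2 g)) w = wdOm S w := by
  simp [wordPerm, wdOm, wdE, map_list_prod, List.map_map, Function.comp_def]

theorem Step.up_word {S S' : St D} (h : Step S S') (w : List Gen) :
    ∃ W : List Gen, ∀ x, proj h.le (wdOm S' W x) = wdOm S w (proj h.le x) := by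
  induction w with
  | nil => exact ⟨[], fun x => by simp [wdOm, wdE]⟩
  | cons g w ih =>
    obtain ⟨W, hW⟩ := ih
    obtain ⟨U, -, hU⟩ := h.up g
    refine ⟨U ++ W, fun x => ?_⟩
    rw [wdOm, wdE_append, map_mul, Equiv.Perm.mul_apply]
    change proj h.le (wdOm S' U (wdOm S' W x)) = _
    rw [hU, hW]
    simp [wdOm, wdE]

theorem transitive_level (D : RData) (l : ℕ) :
    ∀ x x' : Om D (seq D l).1, ∃ w, wdOm (seq D l) w x = x' := by
  induction l with
  | zero =>
    intro x x'
    have := subsingleton_zero (D := D) (i := (seq D 0).1) (by rw [(seq_spec D).1])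
    exact ⟨[], Subsingleton.elim _ _⟩
  | succ l ih =>
    intro x x'
    have h := (seq_spec D).2.2 l
    obtain ⟨w, hw⟩ := ih (proj h.le x) (proj h.le x')
    obtain ⟨W, hW⟩ := h.up_word w
    obtain ⟨w', -, hw'⟩ := h.shuffle (wdOm _ W x) x' ((hW x).trans hw)
    refine ⟨w' ++ W, ?_⟩
    rw [wdOm, wdE_append, map_mul, Equiv.Perm.mul_apply]
    exact hw'

theorem fibre_regular (D : RData) (l : ℕ) (y y' : Om D (seq D l).1) :
    Nat.card {x // proj ((seq_spec D).2.2 l).le x = y} =
      Nat.card {x // proj ((seq_spec D).2.2 l).le x = y'} := by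
  obtain ⟨w, hw⟩ := transitive_level D l y y'
  obtain ⟨W, hW⟩ := ((seq_spec D).2.2 l).up_word w
  refine Nat.card_congr (Equiv.subtypeEquiv (wdOm _ W) fun x => ?_)
  rw [hW, ← hw]
  exact (Equiv.injective _).eq_iff.symm

/-- The bound of the tower. -/
noncomputable def wordBound : ℕ := Nat.card {w : List Gen // w.length ≤ 200} + 200

theorem fibre_bound {S S' : St D} (h : Step S S') (y : Om D S.1) :
    Nat.card {x // proj h.le x = y} ≤ wordBound := by
  have : Finite {w : List Gen // w.length ≤ 200} := (List.finite_length_le Gen 200).to_subtype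
  obtain ⟨x₀, hx₀⟩ := proj_surj h.le y
  choose w hw e using fun x : {x // proj h.le x = y} => h.shuffle x₀ x.1 (hx₀.trans x.2.symm)
  refine (Nat.card_le_card_of_injective (fun x => (⟨w x, hw x⟩ : {w : List Gen // w.length ≤ 200}))
    fun x x' hx => ?_).trans (Nat.le_add_right _ _)
  apply Subtype.ext
  rw [← e x, ← e x', show w x = w x' from congrArg Subtype.val hx]

theorem isFrame_std : D.IsFrame (![![1, 0], ![0, 1], ![0, 0]] : Fin 3 → Fin 2 → D.R) := by
  intro α β h
  exact ⟨by simpa using h 0, by simpa using h 1⟩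

/-- The tower of a sequence of ring data. -/
noncomputable def tower (D : ℕ → RData) : Tower where
  Fib n l := Om (D n) (seq (D n) l).1
  fin n l := Fintype.ofFinite _
  dec n l := Classical.decEq _
  ne n l := ⟨cls _ ⟨_, isFrame_std⟩⟩
  root n := subsingleton_zero (by rw [(seq_spec (D n)).1])
  act n l g := toOm (D n) _ (letE (seq (D n) l).2 g)
  ctr n l i z := toOm (D n) _ (ctrE (seq (D n) l).2 i z)
  act_add n l i a b := by rw [← map_mul, letE, letE, letE, map_add, elE_add (ne_next i)]
  ctr_add n l i a b := by rw [← map_mul, ctrE, ctrE, ctrE, Mz_add, elE_add (ne_next2 i)]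
  heis n l i a b := by
    simp only [← map_mul, letE, ctrE, Mz_tens, succ_succ]
    rw [elE_heis (ne_next i) (next_ne i) (ne_next2 i)]
  ctr_comm_left n l i z a :=
    (show Commute (ctrE (seq (D n) l).2 i z) (letE (seq (D n) l).2 (i, a)) from
      Subtype.ext (el_comm_row (ne_next2 i) (ne_next i) _ _)).map (toOm (D n) _)
  ctr_comm_right n l i z a :=
    (show Commute (ctrE (seq (D n) l).2 i z) (letE (seq (D n) l).2 (i + 1, a)) from
      Subtype.ext (by
        simp only [ctrE, letE, elE, Subgroup.coe_mul, succ_succ]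
        exact el_comm_col (ne_next2 i) (next_ne i) _ _)).map (toOm (D n) _)
  ctrWord := cWord
  ctr_word n l i z := by rw [wordPerm_toOm, wdOm, wdE_cWord]
  A n l := toOm (D n) _ (rmE (D n).a)
  B n l := toOm (D n) _ (rmE (D n).b)
  AB n l := by
    ext1 x
    induction x using Quotient.inductionOn with
    | h v =>
      show cls _ (rm (D n).a (rm (D n).b v)) = cls _ (rm (D n).b (rm (D n).a v))
      refine (Quotient.sound (show frRel _ _ _ from
        ⟨(D n).c₀, Subgroup.mem_zpowers _, fun k b => ?_⟩)).symm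
      have e := congrArg Units.val (D n).ba
      simp only [Units.val_mul] at e
      simp only [rm_val, mul_assoc, e, sub_self, Submodule.zero_mem]
  A_act n l g :=
    (show Commute (rmE (D n).a) (letE (seq (D n) l).2 g) from
      Subtype.ext (rm_comm_el _ _ _ _)).map (toOm (D n) _)
  B_act n l g :=
    (show Commute (rmE (D n).b) (letE (seq (D n) l).2 g) from
      Subtype.ext (rm_comm_el _ _ _ _)).map (toOm (D n) _)
  par n l := proj ((seq_spec (D n)).2.2 l).le
  par_A n l x := proj_toOm _ _ x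
  par_B n l x := proj_toOm _ _ x
  par_surj n l := proj_surj _
  par_regular n l y y' := fibre_regular (D n) l y y'
  bound := wordBound
  par_bound n l y := fibre_bound ((seq_spec (D n)).2.2 l) y
  down n l g := by
    obtain ⟨w, hw, e⟩ := ((seq_spec (D n)).2.2 l).down g
    exact ⟨w, hw.trans (Nat.le_add_left _ _), fun x => by rw [wordPerm_toOm]; exact e x⟩
  up n l g := by
    obtain ⟨w, hw, e⟩ := ((seq_spec (D n)).2.2 l).up g
    exact ⟨w, hw.trans (Nat.le_add_left _ _), fun x => by rw [wordPerm_toOm]; exact e x⟩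
  shuffle n l x x' hxx := by
    obtain ⟨w, hw, e⟩ := ((seq_spec (D n)).2.2 l).shuffle x x' hxx
    exact ⟨w, hw.trans (Nat.le_add_left _ _), by rw [wordPerm_toOm]; exact e⟩
  top n := topLevel (D n)
  plain n l hl := by
    have e1 := (seq_spec (D n)).2.1 l hl
    have e2 := (seq_spec (D n)).2.1 (l + 1) (Nat.le_succ_of_le hl)
    refine ⟨proj_bij _ (by rw [e1, e2]), fun g x => ?_⟩
    rw [proj_toOm, show (seq (D n) (l + 1)).2 = (seq (D n) l).2 by rw [e1, e2]]

section Lift

theorem frame_rm_eq {u : D.Rˣ} {v : Fr D} (h : rm u v = v) : u = 1 := by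
  obtain ⟨k, b, hkb⟩ : ∃ k b, D.ε (v.1 k b) ≠ 0 := by
    by_contra hne
    push Not at hne
    exact one_ne_zero (α := ZMod 5) (v.2 1 0 fun i => by simp [hne]).1
  obtain ⟨w, hw⟩ := D.isUnit_of _ hkb
  have := congrFun (congrFun (congrArg Subtype.val h) k) b
  rw [rm_val, ← hw] at this
  ext
  simpa [← mul_assoc] using congrArg (fun r => ((w⁻¹ : D.Rˣ) : D.R) * r) this

theorem c₀_commute (D : RData) (u : D.Rˣ) : Commute D.c₀ u := Units.ext (D.c₀_comm u)

variable {Q : ℕ} (hQ : D.Q = Q)
include hQ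

theorem c₀_pow_Q : D.c₀ ^ Q = 1 := (D.c₀_pow Q).2 (by rw [hQ])

theorem c₀_zpow [NeZero Q] (m : ℤ) : D.c₀ ^ m = D.c₀ ^ (m : ZMod Q).val := by
  rw [← zpow_natCast, ZMod.val_intCast]
  conv_lhs => rw [← Int.emod_add_mul_ediv m Q, zpow_add, zpow_mul, zpow_natCast, c₀_pow_Q hQ,
    one_zpow, mul_one]

end Lift

theorem wdE_val (w : List Gen) (v : Fr D) :
    ((wdE ((1, 0) : Par D) w).1 v).1 = D.wordOp w v.1 := by
  induction w with
  | nil => rfl
  | cons g w ih =>
    simp only [wdE, List.map_cons, List.prod_cons, Subgroup.coe_mul, Equiv.Perm.mul_apply,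
      RData.wordOp, List.foldr_cons] at ih ⊢
    rw [letE, elE, el_val (ne_next g.1), ih]
    rfl

/-- The frames themselves lift the top level. -/
noncomputable def topLift (D : ℕ → RData) (n Q : ℕ) [NeZero Q] (hQ : (D n).Q = Q) :
    TopLift (tower D) n Q where
  Lift := Fr (D n)
  proj v := cls (seq (D n) (topLevel (D n))).1 v
  act g := (letE ((1, 0) : Par (D n)) g).1
  A := rm (D n).a
  B := rm (D n).b
  z c := rm ((D n).c₀ ^ c.val)
  proj_surj x := by
    induction x using Quotient.inductionOn with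
    | h v => exact ⟨v, rfl⟩
  proj_act g x := by
    change _ = toOm (D n) _ (letE (seq (D n) (topLevel (D n))).2 g) _
    rw [show (seq (D n) (topLevel (D n))).2 = (1, 0) by rw [(seq_spec (D n)).2.1 _ le_rfl],
      toOm_cls]
  proj_A x := rfl
  proj_B x := rfl
  z_add c d := by
    rw [← rm_mul, ← pow_add, ZMod.val_add, Nat.add_comm d.val,
      ← pow_eq_pow_mod _ (c₀_pow_Q hQ)]
  z_free c x h := by
    have := ((D n).c₀_pow _).1 (frame_rm_eq h)
    rw [hQ] at this
    exact (ZMod.val_eq_zero c).1 (Nat.eq_zero_of_dvd_of_lt this (ZMod.val_lt c))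
  z_fibre x y := by
    have hbot : (D n).I (seq (D n) (topLevel (D n))).1 = ⊥ :=
      (D n).I_top _ (by rw [(seq_spec (D n)).2.1 _ le_rfl])
    constructor
    · intro h
      obtain ⟨u, hu, huv⟩ := Quotient.exact h
      obtain ⟨m, rfl⟩ := Subgroup.mem_zpowers_iff.1 hu
      refine ⟨(m : ZMod Q), Subtype.ext (funext fun k => funext fun b => ?_)⟩
      have := huv k b
      rw [hbot, Submodule.mem_bot, sub_eq_zero] at this
      rw [rm_val, ← c₀_zpow hQ, this]
    · rintro ⟨c, rfl⟩
      exact Quotient.sound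
        ⟨(D n).c₀ ^ c.val, Subgroup.pow_mem _ (Subgroup.mem_zpowers _) _, fun k b => by simp⟩
  z_act c g := rm_comm_el _ _ _ _
  z_A c := by
    rw [commute_iff_eq, ← rm_mul, ← rm_mul, ((c₀_commute (D n) _).pow_left _).eq]
  z_B c := by
    rw [commute_iff_eq, ← rm_mul, ← rm_mul, ((c₀_commute (D n) _).pow_left _).eq]
  A_act g := rm_comm_el _ _ _ _
  B_act g := rm_comm_el _ _ _ _
  comm := by
    rw [← rm_mul, ← rm_mul, ← rm_mul, (D n).ba, ZMod.val_one_eq_one_mod,
      ← pow_eq_pow_mod _ (c₀_pow_Q hQ), pow_one]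

theorem topLift_loops (D : ℕ → RData) (n Q : ℕ) [NeZero Q] (hQ : (D n).Q = Q) {K : ℕ}
    (h : (D n).Loops K) : (topLift D n Q hQ).Loops K := by
  intro w hw x c hwx
  have e : wordPerm (topLift D n Q hQ).act w = (wdE ((1, 0) : Par (D n)) w).1 := by
    simp [wordPerm, wdE, topLift, List.map_map, Function.comp_def]
    rfl
  rw [e] at hwx
  have := h w hw x.1 x.2 c.val fun i b =>
    congrFun (congrFun ((wdE_val w x).symm.trans (congrArg Subtype.val hwx)) i) b
  rw [hQ] at this
  exact (ZMod.val_eq_zero c).1 (Nat.eq_zero_of_dvd_of_lt this (ZMod.val_lt c))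

/-- The ring part gives the tower. -/
theorem towerSpec_of_ring (h : RingSpec) : TowerSpec := by
  obtain ⟨D, hQ, hloops⟩ := h
  refine ⟨tower D, fun K => ?_⟩
  obtain ⟨N, hN⟩ := hloops K
  refine ⟨N, fun n hn => ?_⟩
  have : NeZero (5 ^ (2 * n)) := ⟨pow_ne_zero _ (by norm_num)⟩
  exact ⟨topLift D n _ (hQ n), topLift_loops D n _ (hQ n) (hN n hn)⟩

end VP212.Alg
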