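import Vale.Agent.P212.Alg.Tower.Words

/-!
P212: bounded words moving between the points of one fibre of a projection.
-/

namespace VP212.Alg

variable {D : RData} {P : Par D}

/-- A scalar row operation. -/
def elF (i j : Fin 3) (t : ZMod 5) : eqv D := elE i j (t • (1 : D.R))

theorem short_elF {i j : Fin 3} (h : i ≠ j) (t : ZMod 5) : Short P 4 (elF i j t : eqv D) :=
  short_el h (spn_smul_one t)

/-- The image of a frame modulo the maximal ideal. -/
def red (v : Fr D) : Fin 3 → Fin 2 → ZMod 5 := fun k b => D.ε (v.1 k b)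

theorem red_elF {i j : Fin 3} (h : i ≠ j) (t : ZMod 5) (v : Fr D) :
    red ((elF i j t : eqv D).1 v) = rowOp i j t (red v) := by
  funext k b
  simp only [red, elF, elE, el_val h, rowOp, Function.update]
  by_cases hk : k = i
  · subst hk; simp [Algebra.smul_def, -map_smul, AlgHom.commutes]
  · simp [hk, red]

/-- The standard image. -/
def std : Fin 3 → Fin 2 → ZMod 5 := ![![1, 0], ![0, 1], ![0, 0]]

/-- `u` becomes standard by at most `m` scalar row operations. -/
inductive Reduces : ℕ → (Fin 3 → Fin 2 → ZMod 5) → Prop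
  | done (m : ℕ) : Reduces m std
  | step {m : ℕ} {u : Fin 3 → Fin 2 → ZMod 5} (i j : Fin 3) (t : ZMod 5) :
      i ≠ j → Reduces m (rowOp i j t u) → Reduces (m + 1) u

theorem rowOp_F {i j : Fin 3} {t : ZMod 5} (u : Fin 3 → Fin 2 → ZMod 5) (k : Fin 3) (b : Fin 2) :
    rowOp i j t u k b = if k = i then u i b + t * u j b else u k b := by
  unfold rowOp
  by_cases h : k = i
  · subst h; simp
  · simp [h]

/-- Independence of the two columns over the field. -/
def IndF (u : Fin 3 → Fin 2 → ZMod 5) : Prop :=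
  ∀ α β : ZMod 5, (∀ i, α * u i 0 + β * u i 1 = 0) → α = 0 ∧ β = 0

theorem IndF.rowOp {i j : Fin 3} (h : i ≠ j) (t : ZMod 5) {u : Fin 3 → Fin 2 → ZMod 5}
    (hu : IndF u) : IndF (VP212.Alg.rowOp i j t u) := by
  intro α β hab
  refine hu α β fun k => ?_
  have hk := hab k
  have hj := hab j
  simp only [rowOp_F, if_neg (Ne.symm h)] at hj
  by_cases hki : k = i
  · subst hki
    simp only [rowOp_F, if_true] at hk
    linear_combination hk - t * hj
  · simpa only [rowOp_F, if_neg hki] using hk

theorem reduces_second {u : Fin 3 → Fin 2 → ZMod 5} (hu : IndF u) (h0 : u 0 0 = 1)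
    (h1 : u 1 0 = 0) (h2 : u 2 0 = 0) : Reduces 4 u := by
  have fin : ∀ w : Fin 3 → Fin 2 → ZMod 5, w 0 0 = 1 → w 1 0 = 0 → w 2 0 = 0 → w 2 1 ≠ 0 →
      Reduces 3 w := by
    intro w a0 a1 a2 hw
    refine .step 1 2 ((1 - w 1 1) / w 2 1) (by decide) (.step 2 1 (-w 2 1) (by decide)
      (.step 0 1 (-w 0 1) (by decide) ?_))
    convert Reduces.done 0 using 1
    funext k b
    fin_cases k <;> fin_cases b <;> simp [rowOp_F, std, a0, a1, a2] <;> field_simp <;> ring
  by_cases h : u 2 1 = 0
  · have h11 : u 1 1 ≠ 0 := by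
      intro h11
      refine one_ne_zero (α := ZMod 5) (hu (-u 0 1) 1 fun i => ?_).2
      fin_cases i <;> simp [h0, h1, h2, h11, h]
    refine .step 2 1 1 (by decide) (fin _ ?_ ?_ ?_ ?_) <;> simp [rowOp_F, h0, h1, h2, h, h11]
  · have := fin u h0 h1 h2 h
    exact .step 0 1 0 (by decide) (by rwa [show rowOp 0 1 (0 : ZMod 5) u = u by
      funext k b; simp [rowOp_F]; intro hk; rw [hk]])

theorem reduces_first {u : Fin 3 → Fin 2 → ZMod 5} (hu : IndF u) (h0 : u 0 0 = 1) :
    Reduces 6 u := by
  refine .step 1 0 (-u 1 0) (by decide) (.step 2 0 (-u 2 0) (by decide)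
    (reduces_second ((hu.rowOp (by decide) _).rowOp (by decide) _) ?_ ?_ ?_)) <;>
  simp [rowOp_F, h0]

theorem reduces_frame {u : Fin 3 → Fin 2 → ZMod 5} (hu : IndF u) : Reduces 8 u := by
  have fin : ∀ w : Fin 3 → Fin 2 → ZMod 5, IndF w → ∀ l, l ≠ 0 → w l 0 ≠ 0 → Reduces 7 w := by
    intro w hw l hl hne
    refine .step 0 l ((1 - w 0 0) / w l 0) (Ne.symm hl)
      (reduces_first (hw.rowOp (Ne.symm hl) _) ?_)
    simp [rowOp_F]; field_simp; ring
  have skip : ∀ w : Fin 3 → Fin 2 → ZMod 5, Reduces 7 w → Reduces 8 w := fun w hw =>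
    .step 0 1 0 (by decide) (by rwa [show rowOp 0 1 (0 : ZMod 5) w = w by
      funext k b; simp [rowOp_F]; intro hk; rw [hk]])
  by_cases h1 : u 1 0 = 0
  · by_cases h2 : u 2 0 = 0
    · have h0 : u 0 0 ≠ 0 := by
        intro h0
        refine one_ne_zero (α := ZMod 5) (hu 1 0 fun i => ?_).1
        fin_cases i <;> simp [h0, h1, h2]
      exact .step 1 0 1 (by decide) (fin _ (hu.rowOp (by decide) _) 1 (by decide)
        (by simp [rowOp_F, h1, h0]))
    · exact skip _ (fin u hu 2 (by decide) h2)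
  · exact skip _ (fin u hu 1 (by decide) h1)

theorem short_reduce {m : ℕ} {u : Fin 3 → Fin 2 → ZMod 5} (h : Reduces m u) :
    ∀ v : Fr D, red v = u → ∃ g : eqv D, Short P (4 * m) g ∧ Short P (4 * m) g⁻¹ ∧
      red (g.1 v) = std := by
  induction h with
  | done m => exact fun v hv => ⟨1, short_one _, by simpa using short_one (4 * m), hv⟩
  | @step m u i j t hij _ ih =>
    intro v hv
    obtain ⟨g, hg, hg', he⟩ := ih ((elF i j t : eqv D).1 v) (by rw [red_elF hij, hv])
    refine ⟨g * elF i j t, (hg.mul (short_elF hij t)).mono (by omega), ?_, he⟩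
    rw [mul_inv_rev, elF, elE_inv hij, ← neg_smul]
    exact ((short_elF hij (-t)).mul hg').mono (by omega)

theorem exists_std (v : Fr D) : ∃ g : eqv D, Short P 32 g ∧ Short P 32 g⁻¹ ∧
    red (g.1 v) = std :=
  short_reduce (reduces_frame fun α β h => v.2 α β h) v rfl

/-- Two frames with the same image modulo the maximal ideal give the same point at level one. -/
theorem shuffle_root (x x' : Om D 1) : ∃ f : eqv D, Short P 64 f ∧ toOm D 1 f x = x' := by
  induction x, x' using Quotient.inductionOn₂ with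
  | h v v' =>
    obtain ⟨g, hg, -, he⟩ := exists_std (P := P) v
    obtain ⟨g', -, hg', he'⟩ := exists_std (P := P) v'
    refine ⟨g'⁻¹ * g, hg'.mul hg, ?_⟩
    have key : cls 1 (g.1 v) = cls 1 (g'.1 v') := Quotient.sound ⟨1, one_mem _, fun k b => by
      rw [D.I_one, Units.val_one, mul_one, map_sub]
      exact sub_eq_zero.2 (congrFun (congrFun (he'.trans he.symm) k) b)⟩
    rw [map_mul, Equiv.Perm.mul_apply, show toOm D 1 g (Quotient.mk _ v) = cls 1 (g.1 v) from rfl,
      key, map_inv, Equiv.Perm.inv_def, ← toOm_cls]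
    exact Equiv.symm_apply_apply (toOm D 1 g') _

/-- A frame congruent to `w` modulo `I (i + 1)`. -/
def Cg (i : ℕ) (v w : Fin 3 → Fin 2 → D.R) : Prop := ∀ k b, v k b - w k b ∈ D.I (i + 1)

/-- The words adding `t • j` to one entry of a standard frame. -/
noncomputable def adder (j₀ : D.R) (k : Fin 3) (b : Fin 2) (t : ZMod 5) : eqv D :=
  if k = b.castSucc then
    elE 2 b.castSucc ((-t) • j₀) * (elE b.castSucc 2 (t • j₀) *
      (elE 2 b.castSucc 1 * (elE b.castSucc 2 ((-t) • j₀) * elE 2 b.castSucc (-1))))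
  else elE k b.castSucc (t • j₀)

theorem short_adder {j₀ : D.R} (hj : Spn P j₀) (k : Fin 3) (b : Fin 2) (t : ZMod 5) :
    Short P 20 (adder j₀ k b t) := by
  have hb : (2 : Fin 3) ≠ b.castSucc := by fin_cases b <;> decide
  unfold adder
  split_ifs with h
  · exact ((short_el hb (hj.smul _)).mul ((short_el hb.symm (hj.smul _)).mul
      ((short_el hb spn_one).mul ((short_el hb.symm (hj.smul _)).mul
        (short_el hb spn_one.neg))))).mono (by norm_num)
  · exact (short_el h (hj.smul _)).mono (by norm_num)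

/-- The elementary increment. -/
def incr (j₀ : D.R) (k : Fin 3) (b : Fin 2) (t : ZMod 5) : Fin 3 → Fin 2 → D.R :=
  fun l c => if l = k ∧ c = b then t • j₀ else 0

theorem adder_apply {i : ℕ} (hi : 1 ≤ i) {j₀ : D.R} (hj : j₀ ∈ D.I i) (k : Fin 3) (b : Fin 2)
    (t : ZMod 5) {v : Fr D} (hv : red v = std) :
    Cg i ((adder j₀ k b t).1 v).1 (v.1 + incr j₀ k b t) := by
  have hr : ∀ (s : ZMod 5) (r : D.R), (s • j₀) * r - (s * D.ε r) • j₀ ∈ D.I (i + 1) := fun s r => by
    rw [smul_mul_assoc, mul_smul, ← smul_sub]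
    exact (D.I (i + 1)).smul_mem s (D.mul_step hi hj r)
  have hj' : ∀ (s : ZMod 5) (r : D.R), D.ε r = 0 → (s • j₀) * r ∈ D.I (i + 1) := fun s r h => by
    simpa [h] using hr s r
  have hεj : D.ε j₀ = 0 := D.ε_eq_zero hi hj
  have hε : ∀ l c, D.ε (v.1 l c) = std l c := fun l c => congrFun (congrFun hv l) c
  unfold adder
  split_ifs with h
  · subst h
    have hb : (2 : Fin 3) ≠ b.castSucc := by fin_cases b <;> decide
    intro l c
    simp only [Subgroup.coe_mul, Equiv.Perm.mul_apply, elE, el_val hb, el_val hb.symm,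
      rowOp_apply, if_neg hb, if_neg hb.symm, if_true, Pi.add_apply, incr, neg_one_mul, one_mul]
    set p := v.1 b.castSucc c
    set q := v.1 2 c
    set p₁ := p + -t • j₀ * (q + -p) with hp₁
    have hdiag : std 2 c = 0 ∧ std b.castSucc c = if c = b then 1 else 0 := by
      fin_cases b <;> fin_cases c <;> simp [std]
    have hεp : D.ε p = if c = b then 1 else 0 := (hε _ _).trans hdiag.2
    have hεq : D.ε q = 0 := (hε _ _).trans hdiag.1
    set δ : D.R := if c = b then t • j₀ else 0 with hδ
    have m1 : p₁ - (p + δ) ∈ D.I (i + 1) := by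
      have := hr (-t) (q + -p)
      convert this using 1
      rw [map_add, map_neg, hεp, hεq, hδ, hp₁]
      split_ifs <;> simp
    have hεδ : D.ε δ = 0 := by rw [hδ]; split_ifs <;> simp [hεj]
    have hεp₁ : D.ε p₁ = D.ε p := by simp [hp₁, hεj]
    set q₁ := q + -p + p₁ with hq₁
    have hεq₁ : D.ε q₁ = 0 := by simp [hq₁, hεq, hεp₁]
    set p₂ := p₁ + t • j₀ * q₁ with hp₂
    have m2 : p₂ - (p + δ) ∈ D.I (i + 1) := by
      have := (D.I (i + 1)).add_mem m1 (hj' t q₁ hεq₁)
      convert this using 1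
      rw [hp₂]; abel
    by_cases hl : l = 2
    · subst hl
      simp only [if_true, hb, false_and, if_false, add_zero]
      have hεp₂ : D.ε p₂ = D.ε p := by
        simp [hp₂, hεp₁, hεq₁]
      have := (D.I (i + 1)).add_mem m1 (hr (-t) p₂)
      convert this using 1
      rw [hq₁, hεp₂, hεp, hδ]
      split_ifs <;> simp <;> abel
    · simp only [if_neg hl]
      by_cases hlb : l = b.castSucc
      · subst hlb
        simp only [if_true, true_and]
        exact m2
      · simp [hlb]
  · intro l c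
    simp only [elE, el_val h, rowOp_apply, Pi.add_apply, incr]
    split_ifs with h1 h2 h3
    · obtain ⟨rfl, rfl⟩ := h2
      have := hr t (v.1 c.castSucc c)
      rw [hε] at this
      convert this using 1
      fin_cases c <;> simp [std]
    · subst h1
      have hcb : c ≠ b := fun hc => h2 ⟨rfl, hc⟩
      have := hr t (v.1 b.castSucc c)
      rw [hε] at this
      convert this using 1
      fin_cases c <;> fin_cases b <;> simp_all [std]
    · exact absurd h3.1 h1
    · simp

theorem shuffle_list {i : ℕ} (hi : 1 ≤ i) {j₀ : D.R} (hj : j₀ ∈ D.I i) (hs : Spn P j₀)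
    (T : Fin 3 → Fin 2 → ZMod 5) {v : Fr D} (hv : red v = std) (L : List (Fin 3 × Fin 2)) :
    ∃ f : eqv D, Short P (20 * L.length) f ∧
      Cg i (f.1 v).1 (v.1 + (L.map fun q => incr j₀ q.1 q.2 (T q.1 q.2)).sum) := by
  induction L with
  | nil => exact ⟨1, short_one _, fun k b => by simp⟩
  | cons q L ih =>
    obtain ⟨f, hf, hc⟩ := ih
    have hred : red (f.1 v) = std := by
      funext k b
      have h0 := D.ε_eq_zero (Nat.le_add_left 1 i) (hc k b)
      have hj0 : D.ε j₀ = 0 := D.ε_eq_zero hi hj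
      have : D.ε ((L.map fun q => incr j₀ q.1 q.2 (T q.1 q.2)).sum k b) = 0 := by
        clear hc h0 hf
        induction L with
        | nil => simp
        | cons a L ih' =>
          simp only [List.map_cons, List.sum_cons, Pi.add_apply, map_add, ih', add_zero, incr]
          split_ifs <;> simp [hj0]
      rw [map_sub, Pi.add_apply, Pi.add_apply, map_add, this, add_zero, sub_eq_zero] at h0
      rw [← hv]; exact h0
    refine ⟨adder j₀ q.1 q.2 (T q.1 q.2) * f, ((short_adder hs _ _ _).mul hf).mono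
      (by simp only [List.length_cons]; omega), fun k b => ?_⟩
    have h1 := adder_apply hi hj q.1 q.2 (T q.1 q.2) hred k b
    have := (D.I (i + 1)).add_mem h1 (hc k b)
    convert this using 1
    simp only [Subgroup.coe_mul, Equiv.Perm.mul_apply, List.map_cons, List.sum_cons, Pi.add_apply]
    abel

theorem sum_incr (j₀ : D.R) (T : Fin 3 → Fin 2 → ZMod 5) (k : Fin 3) (b : Fin 2) :
    ((Finset.univ : Finset (Fin 3 × Fin 2)).toList.map
      fun q => incr j₀ q.1 q.2 (T q.1 q.2)).sum k b = T k b • j₀ := by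
  rw [Finset.sum_map_toList, Finset.sum_apply, Finset.sum_apply, Finset.sum_eq_single (k, b)]
  · simp [incr]
  · intro q _ hq
    simp only [incr]
    rw [if_neg]
    rintro ⟨rfl, rfl⟩; exact hq rfl
  · simp

/-- A word preserves congruence modulo an ideal. -/
theorem Short.congr_pres {m i : ℕ} {g : eqv D} (hg : Short P m g) {v v' : Fr D}
    (h : ∀ k b, v'.1 k b - v.1 k b ∈ D.I i) (k : Fin 3) (b : Fin 2) :
    (g.1 v').1 k b - (g.1 v).1 k b ∈ D.I i := by
  obtain ⟨w, -, rfl⟩ := hg
  clear m
  induction w generalizing k b with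
  | nil => simpa [wdE] using h k b
  | cons a w ih =>
    simp only [wdE, List.map_cons, List.prod_cons, Subgroup.coe_mul, Equiv.Perm.mul_apply, letE,
      elE, el_val (ne_next a.1), rowOp_apply]
    simp only [wdE] at ih
    split_ifs with hk
    · subst hk
      have := (D.I i).add_mem (ih a.1 b) (D.mul_mem i (Wl P a.2) _ (ih (a.1 + 1) b)).1
      convert this using 1
      rw [mul_sub]; abel
    · exact ih k b

/-- Bounded words connect the points of a fibre of `I (i + 1) → I i` at parameters spanning the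
step. -/
theorem shuffle_step {i : ℕ} (hi : 1 ≤ i) (hs : Spn P (D.j i)) (h : D.I (i + 1) ≤ D.I i)
    (x x' : Om D (i + 1)) (hxx : proj h x = proj h x') :
    ∃ f : eqv D, Short P 184 f ∧ toOm D (i + 1) f x = x' := by
  induction x, x' using Quotient.inductionOn₂ with
  | h v v' =>
    obtain ⟨u, hu, hvv⟩ := Quotient.exact hxx
    set v₁ : Fr D := rm u v
    have hx : (cls (i + 1) v : Om D (i + 1)) = cls (i + 1) v₁ :=
      Quotient.sound ⟨u, hu, fun k b => by simp [v₁]⟩
    obtain ⟨g, hg, hg', he⟩ := exists_std (P := P) v₁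
    have hd : ∀ k b, (g.1 v').1 k b - (g.1 v₁).1 k b ∈ D.I i :=
      hg.congr_pres (fun k b => by simpa [v₁] using hvv k b)
    choose T hT using fun k b => D.step i hi _ (hd k b)
    obtain ⟨f, hf, hc⟩ := shuffle_list hi (D.j_mem i hi) hs T he
      (Finset.univ : Finset (Fin 3 × Fin 2)).toList
    refine ⟨g⁻¹ * f * g, ((hg'.mul hf).mul hg).mono (by simp), ?_⟩
    have key : cls (i + 1) (f.1 (g.1 v₁)) = cls (i + 1) (g.1 v') :=
      Quotient.sound ⟨1, one_mem _, fun k b => by
        have := (D.I (i + 1)).sub_mem (hT k b) (hc k b)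
        rw [Units.val_one, mul_one]
        convert this using 1
        rw [Pi.add_apply, Pi.add_apply, sum_incr]; abel⟩
    show toOm D (i + 1) (g⁻¹ * f * g) (cls (i + 1) v) = cls (i + 1) v'
    rw [hx, map_mul, map_mul, Equiv.Perm.mul_apply, Equiv.Perm.mul_apply, toOm_cls, toOm_cls, key,
      map_inv, Equiv.Perm.inv_def, ← toOm_cls]
    exact Equiv.symm_apply_apply (toOm D (i + 1) g) _

end VP212.Alg
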