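import Vale.Agent.P212.Alg.Ring.Spec
import Vale.Agent.P212.Alg.Tower.Main

/-!
P212: the algebraic input of the construction.
-/

namespace VP212.Alg

/-- The tower with liftings of growing order and vanishing short loops exists. -/
theorem towerSpec : TowerSpec := towerSpec_of_ring ringSpec

end VP212.Alg
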