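import Vale.Agent.P212.Alg.Tower.Frames

/-!
P212: the letters at given parameters, the central letters as fixed words, and bounded words for
row operations with simple coefficients.
-/

namespace VP212.Alg

variable {D : RData}

/-- A row operation as a compatible permutation. -/
def elE (i j : Fin 3) (r : D.R) : eqv D := ⟨el i j r, el_mem_eqv i j r⟩

/-- A right multiplication as a compatible permutation. -/
def rmE (u : D.Rˣ) : eqv D := ⟨rm u, rm_mem_eqv u⟩

theorem elE_add {i j : Fin 3} (h : i ≠ j) (r s : D.R) :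
    (elE i j (r + s) : eqv D) = elE i j r * elE i j s := Subtype.ext (el_add h r s)

theorem elE_zero {i j : Fin 3} (h : i ≠ j) : (elE i j 0 : eqv D) = 1 := Subtype.ext (el_zero h)

theorem elE_inv {i j : Fin 3} (h : i ≠ j) (r : D.R) : (elE i j r : eqv D)⁻¹ = elE i j (-r) :=
  Subtype.ext (el_inv h r)

theorem elE_heis {i j k : Fin 3} (hij : i ≠ j) (hjk : j ≠ k) (hik : i ≠ k) (r s : D.R) :
    (elE i j r * elE j k s : eqv D) = elE i k (r * s) * (elE j k s * elE i j r) :=
  Subtype.ext (el_heis hij hjk hik r s)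

theorem elE_commutator {i j k : Fin 3} (hij : i ≠ j) (hjk : j ≠ k) (hik : i ≠ k) (r s : D.R) :
    (elE i j r * elE j k s * elE i j (-r) * elE j k (-s) : eqv D) = elE i k (r * s) := by
  rw [← elE_inv hij, ← elE_inv hjk, elE_heis hij hjk hik]
  group

theorem ne_next (i : Fin 3) : i ≠ i + 1 := by fin_cases i <;> decide

theorem next_ne (i : Fin 3) : i + 1 ≠ i + 2 := by fin_cases i <;> decide

theorem ne_next2 (i : Fin 3) : i ≠ i + 2 := by fin_cases i <;> decide

theorem succ_succ (i : Fin 3) : i + 1 + 1 = i + 2 := by fin_cases i <;> decide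

/-- The parameters of a level. -/
abbrev Par (D : RData) : Type := D.Rˣ × D.R

variable (P : Par D)

/-- The coefficient map, linearly. -/
def Wl : Coef →ₗ[ZMod 5] D.R where
  toFun := D.W P.1 P.2
  map_add' v w := by simp only [RData.W, Pi.add_apply, add_smul]; abel
  map_smul' t v := by simp only [RData.W, Pi.smul_apply, smul_add, smul_smul, smul_eq_mul,
    RingHom.id_apply]

theorem Wl_apply (v : Coef) : Wl P v = D.W P.1 P.2 v := rfl

/-- The coefficient of a central letter. -/
def Mz (z : Coef2) : D.R := ∑ q, z q • (Wl P (Pi.single q.1 1) * Wl P (Pi.single q.2 1))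

theorem Mz_add (z z' : Coef2) : Mz P (z + z') = Mz P z + Mz P z' := by
  simp [Mz, add_smul, Finset.sum_add_distrib]

theorem Mz_tens (a b : Coef) : Mz P (tens a b) = Wl P a * Wl P b := by
  have e : ∀ v : Coef, v = ∑ k, v k • (Pi.single k (1 : ZMod 5) : Coef) := fun v => by
    funext l; simp [Finset.sum_apply, Pi.single_apply]
  conv_rhs => rw [e a, e b, map_sum, map_sum, Finset.sum_mul_sum]
  rw [Mz, Fintype.sum_prod_type]
  refine Finset.sum_congr rfl fun k _ => Finset.sum_congr rfl fun l _ => ?_
  simp [tens, map_smul, mul_smul, smul_comm (a k)]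

/-- A letter at the parameters `P`. -/
def letE (g : Gen) : eqv D := elE g.1 (g.1 + 1) (Wl P g.2)

/-- A word at the parameters `P`. -/
def wdE (w : List Gen) : eqv D := (w.map (letE P)).prod

/-- A central letter at the parameters `P`. -/
def ctrE (i : Fin 3) (z : Coef2) : eqv D := elE i (i + 2) (Mz P z)

theorem wdE_append (w w' : List Gen) : wdE P (w ++ w') = wdE P w * wdE P w' := by simp [wdE]

/-- The commutator word of two coefficients. -/
def commWord (i : Fin 3) (a b : Coef) : List Gen := [(i, a), (i + 1, b), (i, -a), (i + 1, -b)]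

theorem wdE_commWord (i : Fin 3) (a b : Coef) :
    wdE P (commWord i a b) = elE i (i + 2) (Wl P a * Wl P b) := by
  rw [← elE_commutator (ne_next i) (next_ne i) (ne_next2 i) (Wl P a) (Wl P b)]
  simp only [wdE, commWord, List.map_cons, List.map_nil, List.prod_cons, List.prod_nil, letE,
    succ_succ, map_neg, mul_one, mul_assoc]

/-- The pairs of coordinates, as a list. -/
noncomputable def pairList : List (Fin 7 × Fin 7) := (Finset.univ : Finset (Fin 7 × Fin 7)).toList

/-- The word of a central letter. -/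
noncomputable def cWord (i : Fin 3) (z : Coef2) : List Gen :=
  pairList.flatMap fun q => commWord i (Pi.single q.1 (z q)) (Pi.single q.2 1)

theorem wdE_cWord (i : Fin 3) (z : Coef2) : wdE P (cWord i z) = ctrE P i z := by
  have key : ∀ L : List (Fin 7 × Fin 7),
      wdE P (L.flatMap fun q => commWord i (Pi.single q.1 (z q)) (Pi.single q.2 1)) =
        elE i (i + 2)
          (L.map fun q => z q • (Wl P (Pi.single q.1 1) * Wl P (Pi.single q.2 1))).sum := by
    intro L
    induction L with
    | nil => simp [wdE, elE_zero (ne_next2 i)]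
    | cons q L ih =>
      rw [List.flatMap_cons, wdE_append, ih, wdE_commWord, List.map_cons, List.sum_cons,
        elE_add (ne_next2 i)]
      congr 2
      rw [← smul_mul_assoc, ← map_smul, ← Pi.single_smul, smul_eq_mul, mul_one]
  rw [cWord, key, ctrE, Mz]
  congr 1
  rw [pairList, Finset.sum_map_toList]

/-- A compatible permutation given by a word of length at most `b`. -/
def Short (b : ℕ) (f : eqv D) : Prop := ∃ w : List Gen, w.length ≤ b ∧ wdE P w = f

variable {P}

theorem Short.mul {b c : ℕ} {f g : eqv D} (hf : Short P b f) (hg : Short P c g) :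
    Short P (b + c) (f * g) := by
  obtain ⟨w, hw, rfl⟩ := hf
  obtain ⟨w', hw', rfl⟩ := hg
  exact ⟨w ++ w', by simp; omega, wdE_append P w w'⟩

theorem Short.mono {b c : ℕ} {f : eqv D} (hf : Short P b f) (h : b ≤ c) : Short P c f :=
  hf.imp fun _ hw => ⟨hw.1.trans h, hw.2⟩

theorem short_one (b : ℕ) : Short P b (1 : eqv D) := ⟨[], by simp, rfl⟩

variable (P)

/-- The span of the coefficients. -/
def Spn (r : D.R) : Prop := ∃ v : Coef, Wl P v = r

variable {P}

theorem spn_smul_one (t : ZMod 5) : Spn P (t • (1 : D.R)) :=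
  ⟨Pi.single 0 t, by simp [Wl_apply, RData.W]⟩

theorem spn_one : Spn P (1 : D.R) := by simpa using spn_smul_one (P := P) 1

theorem Spn.neg {r : D.R} (h : Spn P r) : Spn P (-r) := by
  obtain ⟨v, rfl⟩ := h; exact ⟨-v, map_neg _ _⟩

theorem Spn.add {r s : D.R} (h : Spn P r) (h' : Spn P s) : Spn P (r + s) := by
  obtain ⟨v, rfl⟩ := h; obtain ⟨w, rfl⟩ := h'; exact ⟨v + w, map_add _ _ _⟩

theorem Spn.smul {r : D.R} (h : Spn P r) (t : ZMod 5) : Spn P (t • r) := by
  obtain ⟨v, rfl⟩ := h; exact ⟨t • v, map_smul _ _ _⟩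

theorem short_el {i j : Fin 3} (h : i ≠ j) {r : D.R} (hr : Spn P r) : Short P 4 (elE i j r) := by
  obtain ⟨v, rfl⟩ := hr
  rcases (by fin_cases i <;> fin_cases j <;> simp_all :
    j = i + 1 ∨ j = i + 2) with rfl | rfl
  · exact ⟨[(i, v)], by simp, by simp [wdE, letE]⟩
  · refine ⟨commWord i v (Pi.single 0 1), by simp [commWord], ?_⟩
    rw [wdE_commWord]
    congr 1
    simp [Wl_apply, RData.W]

theorem short_el_mul {i j : Fin 3} (h : i ≠ j) {r s : D.R} (hr : Spn P r) (hs : Spn P s) :
    Short P 16 (elE i j (r * s)) := by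
  obtain ⟨k, hik, hkj⟩ : ∃ k, i ≠ k ∧ k ≠ j := by
    fin_cases i <;> fin_cases j <;>
      first
        | exact absurd rfl h
        | exact ⟨0, by decide, by decide⟩
        | exact ⟨1, by decide, by decide⟩
        | exact ⟨2, by decide, by decide⟩
  rw [← elE_commutator hik hkj h r s]
  exact (((short_el hik hr).mul (short_el hkj hs)).mul (short_el hik hr.neg)).mul
    (short_el hkj hs.neg)

/-- The parameters `P'` are expressible at `P`. -/
def Good (P P' : Par D) : Prop :=
  (∃ r s, Spn P r ∧ Spn P s ∧ (P'.1 : D.R) = r * s) ∧ Spn P P'.2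

theorem short_letE {P' : Par D} (h : Good P P') (g : Gen) : Short P 20 (letE P' g) := by
  obtain ⟨⟨r, s, hr, hs, hp⟩, hs'⟩ := h
  set v := g.2
  have e : Wl P' v = Wl P (Function.update (Function.update v 5 0) 6 0) +
      (v 5 • r) * s + v 6 • P'.2 := by
    simp only [Wl_apply, RData.W, Function.update, ← hp, smul_mul_assoc]
    simp
  rw [letE, e, add_right_comm, elE_add (ne_next _)]
  exact ((short_el (ne_next _) (Spn.add ⟨_, rfl⟩ (hs'.smul _))).mul
    (short_el_mul (ne_next _) (hr.smul _) hs)).mono (by norm_num)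

end VP212.Alg
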